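import Vale.Agent.P052.Data

namespace Vale.Agent.P052

/-- forces the kernel to evaluate `n` before passing it on -/
noncomputable def force (n : ℕ) (f : ℕ → Bool) : Bool :=
  Nat.rec (motive := fun _ => Bool) false (fun i _ => f i) (Nat.add n 1)

/-- filter `L` by the bits `8 * v` of `m`, pass the (reversed) result to the continuation -/
noncomputable def filt (m : ℕ) (L : List ℕ) : List ℕ → (List ℕ → Bool) → Bool :=
  List.rec (motive := fun _ => List ℕ → (List ℕ → Bool) → Bool)
    (fun acc k => k acc)
    (fun v _ ih acc k =>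
      cond (Nat.beq (Nat.mod (Nat.shiftRight m (Nat.mul 8 v)) 2) 1) (ih (v :: acc) k) (ih acc k)) L

noncomputable def scan (f : List ℕ → Bool) (L : List ℕ) : Bool :=
  List.rec (motive := fun _ => Bool) true
    (fun v rest ih => cond (force (tr.get v) fun m => filt m rest [] f) ih false) L

/-- `chk k L` verifies that there is no `k`-clique inside `L` -/
noncomputable def chk (k : ℕ) : List ℕ → Bool :=
  Nat.rec (motive := fun _ => List ℕ → Bool) (fun _ => false) (fun _ ih => scan ih) k

/-- list of the numbers `< n` -/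
noncomputable def dn (n : ℕ) (acc : List ℕ) : List ℕ :=
  Nat.rec (motive := fun _ => List ℕ → List ℕ) (fun acc => acc) (fun i ih acc => ih (i :: acc)) n acc

noncomputable def sumPow (L : List ℕ) : ℕ :=
  List.rec (motive := fun _ => ℕ) 0 (fun j _ ih => Nat.add (Nat.pow 256 j) ih) L

noncomputable def sumRow (L : List ℕ) : ℕ :=
  List.rec (motive := fun _ => ℕ) 0 (fun j _ ih => Nat.add (tr.get j) ih) L

noncomputable def len (L : List ℕ) : ℕ :=
  List.rec (motive := fun _ => ℕ) 0 (fun _ _ ih => Nat.add ih 1) L

noncomputable def rowOK (i : ℕ) : Bool :=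
  force (tr.get i) fun m => filt m (dn 416 []) [] fun L =>
    cond (Nat.beq (sumPow L) m)
      (cond (Nat.beq (len L) 100)
        (cond (Nat.beq (sumRow L) (Nat.add (Nat.mul 80 (Nat.pow 256 i)) (Nat.add (Nat.mul 16 m) (Nat.mul 20 ones))))
          (Nat.beq (Nat.mod (Nat.shiftRight m (Nat.mul 8 i)) 2) 0) false) false) false

noncomputable def allBelow (p : ℕ → Bool) (n : ℕ) : Bool :=
  Nat.rec (motive := fun _ => Bool) true (fun i ih => cond (p i) ih false) n

end Vale.Agent.P052
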