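import Vale.Agent.P052.Mat

namespace Vale.Agent.P052

open Finset Matrix

abbrev E := EuclideanSpace ℝ (Fin 416)

/-- the projection -/
noncomputable def f : E →ₗ[ℝ] E := Matrix.toEuclideanLin P

theorem trace_P : P.trace = 63 := by
  have hA : A.trace = 0 := by
    simp only [Matrix.trace, Matrix.diag, A]
    exact sum_eq_zero fun i _ => by rw [a_self i i.2]; simp
  have hJ : J.trace = 416 := by simp [Matrix.trace, Matrix.diag, J]
  have hK : K.trace = 192 := by
    unfold K
    rw [Matrix.trace_mul_comm, ← Matrix.mul_assoc, hWW, Matrix.smul_mul, Matrix.one_mul,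
      Matrix.trace_smul]
    simp [Matrix.trace, Matrix.diag, M3, Fin.sum_univ_three]; norm_num
  unfold P
  rw [Matrix.trace_smul, Matrix.trace_sub, Matrix.trace_sub, Matrix.trace_add, Matrix.trace_smul,
    Matrix.trace_smul, Matrix.trace_one, hA, hJ, hK]
  simp; norm_num

theorem f_idem : IsIdempotentElem f := by
  unfold IsIdempotentElem f
  have h := P_sq
  ext x i
  simp only [Module.End.mul_apply, Matrix.toLpLin_apply]
  simp [Matrix.mulVec_mulVec, h]

theorem finrank_range : Module.finrank ℝ (LinearMap.range f) = 63 := by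
  have h1 := (LinearMap.IsIdempotentElem.isProj_range f f_idem).trace
  have h2 : LinearMap.trace ℝ E f = P.trace := by
    unfold f
    rw [Matrix.toEuclideanLin_eq_toLin_orthonormal, Matrix.trace_toLin_eq]
  rw [h2, trace_P] at h1
  exact_mod_cast h1.symm

/-- the columns of `P` -/
noncomputable def q (i : Fin 416) : E := WithLp.toLp 2 fun k => P k i

theorem q_mem (i : Fin 416) : q i ∈ LinearMap.range f := by
  refine ⟨EuclideanSpace.single i 1, ?_⟩
  unfold f q
  ext k
  simp [Matrix.toLpLin_apply]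

theorem inner_q (i j : Fin 416) : inner ℝ (q i) (q j) = P i j := by
  have h : (Pᵀ * P) i j = P i j := by rw [P_transpose, P_sq]
  rw [← h, mul_apply, PiLp.inner_apply]
  exact sum_congr rfl fun k _ => by simp [q, transpose_apply, mul_comm]

theorem norm_q (i : Fin 416) : ‖q i‖ ^ 2 = P i i := by
  rw [← real_inner_self_eq_norm_sq, inner_q]

theorem K_zero (i j : Fin 416) (hi : (i : ℕ) < 320) : K i j = 0 := by
  unfold K
  rw [mul_apply]
  refine sum_eq_zero fun c _ => ?_
  rw [mul_apply]
  have : ∀ d, W i d = 0 := by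
    intro d; unfold W ind
    have : ¬ (320 + 32 * (d : ℕ) ≤ i ∧ (i : ℕ) < 320 + 32 * d + 32) := by omega
    simp [this]
  simp [this]

theorem K_t : K 320 320 = 2 := by
  unfold K
  simp only [mul_apply, transpose_apply, Fin.sum_univ_three, W, ind, M3]
  norm_num

theorem P_diag (i : Fin 416) (hi : (i : ℕ) < 320) : P i i = 15 / 96 := by
  unfold P
  simp only [Matrix.smul_apply, Matrix.sub_apply, Matrix.add_apply, Matrix.one_apply_eq, smul_eq_mul,
    K_zero i i hi, J, A, a_self i i.2]
  norm_num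

theorem P_off (i j : Fin 416) (hi : (i : ℕ) < 320) (hij : i ≠ j) :
    P i j = (4 * (a i j : ℝ) - 1) / 96 := by
  unfold P
  simp only [Matrix.smul_apply, Matrix.sub_apply, Matrix.add_apply, Matrix.one_apply_ne hij, smul_eq_mul,
    K_zero i j hi, J, A]
  ring

theorem P_t : P 320 320 = 13 / 96 := by
  unfold P
  have := a_self 320 (by norm_num)
  simp only [Matrix.smul_apply, Matrix.sub_apply, Matrix.add_apply, Matrix.one_apply_eq, smul_eq_mul,
    K_t, J, A]
  have h320 : ((320 : Fin 416) : ℕ) = 320 := rfl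
  rw [h320, this]
  norm_num

/-- the scaling factor -/
noncomputable def lam : ℝ := (√222 - 1) / 13

theorem lam_eq : 13 * lam ^ 2 + 2 * lam = 17 := by
  unfold lam
  have h : √222 ^ 2 = 222 := Real.sq_sqrt (by norm_num)
  nlinarith

theorem lam_pos : 0 < lam := by
  unfold lam
  have h : (1 : ℝ) < √222 := by
    rw [Real.lt_sqrt (by norm_num)]; norm_num
  linarith [h, div_pos (sub_pos.mpr h) (by norm_num : (0 : ℝ) < 13)]

/-- the 321 points -/
noncomputable def y (i : Fin 321) : E :=
  if (i : ℕ) < 320 then q (Fin.castLE (by norm_num) i) else lam • q 320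

theorem y_mem (i : Fin 321) : y i ∈ LinearMap.range f := by
  unfold y; split
  · exact q_mem _
  · exact Submodule.smul_mem _ _ (q_mem _)

theorem dist_S (i j : Fin 321) (hi : (i : ℕ) < 320) (hj : (j : ℕ) < 320) (hij : i ≠ j) :
    ‖y i - y j‖ ^ 2 = 1 / 3 - (a i j : ℝ) / 12 := by
  unfold y
  rw [if_pos hi, if_pos hj, @norm_sub_sq_real, ← real_inner_self_eq_norm_sq,
    ← real_inner_self_eq_norm_sq, inner_q, inner_q, inner_q, P_diag _ (by simpa using hi),
    P_diag _ (by simpa using hj), P_off _ _ (by simpa using hi)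
      (fun h => hij (Fin.ext (by simpa using congrArg Fin.val h)))]
  simp only [Fin.val_castLE]
  ring

theorem dist_x (i j : Fin 321) (hi : ¬ (i : ℕ) < 320) (hj : (j : ℕ) < 320) :
    ‖y i - y j‖ ^ 2 = 1 / 3 - lam * (a 320 j : ℝ) / 12 := by
  have hi' : (i : ℕ) = 320 := by omega
  unfold y
  rw [if_neg hi, if_pos hj, @norm_sub_sq_real, norm_smul, mul_pow, norm_q, norm_q,
    real_inner_smul_left, inner_q, P_t, P_diag _ (by simpa using hj)]
  have hsym : P 320 (Fin.castLE (by norm_num) j) = P (Fin.castLE (by norm_num) j) 320 := by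
    conv_lhs => rw [← P_transpose]
    rfl
  rw [hsym, P_off _ _ (by simpa using hj) (fun h => by
    have := congrArg Fin.val h
    have h320 : ((320 : Fin 416) : ℕ) = 320 := rfl
    simp only [Fin.val_castLE] at this
    omega)]
  have h320 : ((320 : Fin 416) : ℕ) = 320 := rfl
  rw [h320]
  simp only [Fin.val_castLE]
  rw [a_symm (j : ℕ) 320 (by omega) (by norm_num)]
  have h := lam_eq
  have h2 : ‖lam‖ ^ 2 = lam ^ 2 := by rw [Real.norm_eq_abs, sq_abs]
  rw [h2]
  linear_combination (1 / 96) * h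


theorem a_zero_or_one (i j : ℕ) : a i j = 0 ∨ a i j = 1 := by
  have := a_le_one i j; omega

theorem sq_le (i j : Fin 321) : ‖y i - y j‖ ^ 2 ≤ 1 / 3 := by
  by_cases hij : i = j
  · subst hij; simp
  by_cases hi : (i : ℕ) < 320
  · by_cases hj : (j : ℕ) < 320
    · rw [dist_S i j hi hj hij]
      have : (0 : ℝ) ≤ (a i j : ℝ) := Nat.cast_nonneg _
      linarith
    · rw [norm_sub_rev, dist_x j i hj hi]
      have : (0 : ℝ) ≤ (a 320 i : ℝ) := Nat.cast_nonneg _
      have := mul_nonneg lam_pos.le this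
      linarith
  · by_cases hj : (j : ℕ) < 320
    · rw [dist_x i j hi hj]
      have : (0 : ℝ) ≤ (a 320 j : ℝ) := Nat.cast_nonneg _
      have := mul_nonneg lam_pos.le this
      linarith
    · exact absurd (Fin.ext (by omega)) hij

/-- points closer than the diameter are adjacent -/
theorem close_S (i j : Fin 321) (hi : (i : ℕ) < 320) (hj : (j : ℕ) < 320) (hij : i ≠ j)
    (h : ‖y i - y j‖ ^ 2 < 1 / 3) : adj i j = true := by
  rw [dist_S i j hi hj hij] at h
  rcases a_zero_or_one i j with e | e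
  · rw [e] at h; simp at h
  · exact a_eq_one _ _ e

theorem close_x (i j : Fin 321) (hi : ¬ (i : ℕ) < 320) (hj : (j : ℕ) < 320)
    (h : ‖y i - y j‖ ^ 2 < 1 / 3) : adj 320 j = true := by
  rw [dist_x i j hi hj] at h
  rcases a_zero_or_one 320 j with e | e
  · rw [e] at h; simp at h
  · exact a_eq_one _ _ e

/-- at most five points have pairwise distances below the diameter -/
theorem card_le (L : Finset (Fin 321))
    (hL : ∀ i ∈ L, ∀ j ∈ L, i ≠ j → ‖y i - y j‖ ^ 2 < 1 / 3) : L.card ≤ 5 := by
  by_contra hcon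
  push Not at hcon
  by_cases hx : (320 : Fin 321) ∈ L
  · have hc : 5 ≤ (L.erase 320).card := by rw [card_erase_of_mem hx]; omega
    obtain ⟨M, hM, hMc⟩ := exists_subset_card_eq hc
    have hlt : ∀ i ∈ M, (i : ℕ) < 320 := by
      intro i hi
      have h1 := (mem_erase.mp (hM hi)).1
      have h2 := i.2
      by_contra h3
      exact h1 (Fin.ext (by
        have : ((320 : Fin 321) : ℕ) = 320 := rfl
        omega))
    refine noClique5 (M.image Fin.val) ?_ ?_ ?_
    · intro v hv
      obtain ⟨i, hi, rfl⟩ := mem_image.mp hv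
      rw [List.mem_reverse, List.mem_filter, List.mem_range]
      refine ⟨hlt i hi, ?_⟩
      have hne := (mem_erase.mp (hM hi)).1
      have h3 : ¬ ((320 : Fin 321) : ℕ) < 320 := by
        have : ((320 : Fin 321) : ℕ) = 320 := rfl
        omega
      exact close_x 320 i h3 (hlt i hi) (hL 320 hx i (mem_of_mem_erase (hM hi)) (Ne.symm hne))
    · intro u hu v hv huv
      obtain ⟨i, hi, rfl⟩ := mem_image.mp hu
      obtain ⟨j, hj, rfl⟩ := mem_image.mp hv
      have hij : i ≠ j := fun e => huv (by rw [e])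
      exact close_S i j (hlt i hi) (hlt j hj) hij
        (hL i (mem_of_mem_erase (hM hi)) j (mem_of_mem_erase (hM hj)) hij)
    · rw [card_image_of_injective _ Fin.val_injective, hMc]
  · obtain ⟨M, hM, hMc⟩ := exists_subset_card_eq (show 6 ≤ L.card by omega)
    have hlt : ∀ i ∈ M, (i : ℕ) < 320 := by
      intro i hi
      have h2 := i.2
      by_contra h3
      have : i = 320 := Fin.ext (by
        have : ((320 : Fin 321) : ℕ) = 320 := rfl
        omega)
      exact hx (this ▸ hM hi)
    refine noClique6 (M.image Fin.val) ?_ ?_ ?_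
    · intro v hv
      obtain ⟨i, hi, rfl⟩ := mem_image.mp hv
      rw [List.mem_range]
      exact hlt i hi
    · intro u hu v hv huv
      obtain ⟨i, hi, rfl⟩ := mem_image.mp hu
      obtain ⟨j, hj, rfl⟩ := mem_image.mp hv
      have hij : i ≠ j := fun e => huv (by rw [e])
      exact close_S i j (hlt i hi) (hlt j hj) hij (hL i (hM hi) j (hM hj) hij)
    · rw [card_image_of_injective _ Fin.val_injective, hMc]

/-- The 321 points in dimension 63. -/
theorem exists_points : ∃ z : Fin 321 → EuclideanSpace ℝ (Fin 63),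
    (∀ i j, dist (z i) (z j) ^ 2 ≤ 1 / 3) ∧ (∃ i j, 0 < dist (z i) (z j)) ∧
    ∀ L : Finset (Fin 321), (∀ i ∈ L, ∀ j ∈ L, i ≠ j → dist (z i) (z j) ^ 2 < 1 / 3) →
      L.card ≤ 5 := by
  let V := LinearMap.range f
  let b : OrthonormalBasis (Fin 63) ℝ V :=
    (stdOrthonormalBasis ℝ V).reindex (finCongr finrank_range)
  let φ : V ≃ₗᵢ[ℝ] EuclideanSpace ℝ (Fin 63) := b.repr
  let z : Fin 321 → EuclideanSpace ℝ (Fin 63) := fun i => φ ⟨y i, y_mem i⟩
  have hz : ∀ i j, dist (z i) (z j) = ‖y i - y j‖ := by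
    intro i j
    have h1 : dist (z i) (z j) = dist (⟨y i, y_mem i⟩ : V) ⟨y j, y_mem j⟩ :=
      φ.isometry.dist_eq _ _
    rw [h1, Subtype.dist_eq, dist_eq_norm]
  refine ⟨z, fun i j => by rw [hz]; exact sq_le i j, ?_, fun L hL => ?_⟩
  · refine ⟨0, 1, ?_⟩
    rw [hz]
    have h := dist_S 0 1 (by norm_num) (by norm_num) (by norm_num)
    have h2 : ((a (0 : Fin 321) (1 : Fin 321) : ℕ) : ℝ) ≤ 1 := by exact_mod_cast a_le_one _ _
    have h3 : 0 < ‖y 0 - y 1‖ ^ 2 := by rw [h]; linarith
    by_contra h4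
    have h5 : ‖y 0 - y 1‖ = 0 := le_antisymm (not_lt.mp h4) (norm_nonneg _)
    rw [h5] at h3; norm_num at h3
  · exact card_le L fun i hi j hj hij => by rw [← hz]; exact hL i hi j hj hij

end Vale.Agent.P052
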