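import Vale.Agent.P052.Checks

namespace Vale.Agent.P052

theorem rows_ok : allBelow rowOK 416 = true := by decide +kernel

/-- the list `s, s+1, ..., s+n-1` -/
noncomputable def seg (s n : ℕ) : List ℕ :=
  Nat.rec (motive := fun _ => List ℕ → List ℕ) (fun acc => acc)
    (fun i ih acc => ih (Nat.add s i :: acc)) n []

noncomputable def compOK (c : ℕ) : Bool :=
  Nat.beq (Nat.mul 255 (sumRow (seg (Nat.add 320 (Nat.mul 32 c)) 32)))
    (Nat.add (Nat.mul 8 (Nat.sub (Nat.pow 256 320) 1))
      (Nat.mul 20 (Nat.mul (Nat.pow 256 (Nat.add 320 (Nat.mul 32 c))) (Nat.sub (Nat.pow 256 32) 1))))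

theorem comps_ok : allBelow compOK 3 = true := by decide +kernel

theorem ones_ok : Nat.beq (Nat.mul 255 ones) (Nat.sub (Nat.pow 256 416) 1) = true := by
  decide +kernel

end Vale.Agent.P052
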