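import Vale.Agent.P052.Checks

namespace Vale.Agent.P052

theorem chkX : (force (tr.get 320) fun m => filt m (dn 320 []) [] (chk 5)) = true := by
  decide +kernel

theorem chkS : chk 6 (dn 320 []) = true := by decide +kernel

end Vale.Agent.P052
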