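import Vale.Agent.P052.Spec
import Vale.Agent.P052.Kernel
import Vale.Agent.P052.KernelS

namespace Vale.Agent.P052

open Finset

theorem pk_lt (n : ℕ) (f : ℕ → ℕ) (hf : ∀ k < n, f k < 256) :
    ∑ k ∈ range n, f k * 256 ^ k < 256 ^ n := by
  induction n with
  | zero => simp
  | succ n ih =>
    rw [sum_range_succ, pow_succ]
    have h1 := ih (fun k hk => hf k (by omega))
    have h2 : f n ≤ 255 := by have := hf n (by omega); omega
    have h3 : f n * 256 ^ n ≤ 255 * 256 ^ n := Nat.mul_le_mul_right _ h2
    omega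

theorem pk_inj (n : ℕ) (f g : ℕ → ℕ) (hf : ∀ k < n, f k < 256) (hg : ∀ k < n, g k < 256)
    (h : ∑ k ∈ range n, f k * 256 ^ k = ∑ k ∈ range n, g k * 256 ^ k) :
    ∀ k < n, f k = g k := by
  induction n with
  | zero => intro k hk; omega
  | succ n ih =>
    rw [sum_range_succ, sum_range_succ] at h
    have hf1 := pk_lt n f (fun k hk => hf k (by omega))
    have hg1 := pk_lt n g (fun k hk => hg k (by omega))
    have hn : f n = g n := by
      rcases lt_trichotomy (f n) (g n) with hlt | heq | hgt
      · exfalso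
        have : (f n + 1) * 256 ^ n ≤ g n * 256 ^ n := Nat.mul_le_mul_right _ hlt
        rw [add_mul, one_mul] at this
        omega
      · exact heq
      · exfalso
        have : (g n + 1) * 256 ^ n ≤ f n * 256 ^ n := Nat.mul_le_mul_right _ hgt
        rw [add_mul, one_mul] at this
        omega
    have h' : ∑ k ∈ range n, f k * 256 ^ k = ∑ k ∈ range n, g k * 256 ^ k := by
      rw [hn] at h; omega
    intro k hk
    rcases Nat.lt_succ_iff_lt_or_eq.mp hk with hk' | hk'
    · exact ih (fun k hk => hf k (by omega)) (fun k hk => hg k (by omega)) h' k hk'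
    · exact hk' ▸ hn

theorem a_le_one (i k : ℕ) : a i k ≤ 1 := by unfold a; split <;> omega

theorem a_eq_one (i k : ℕ) (h : a i k = 1) : adj i k = true := by
  unfold a at h; by_contra hc; simp [hc] at h

theorem a_eq_one' (i k : ℕ) (h : adj i k = true) : a i k = 1 := by
  unfold a; simp [h]

attribute [local irreducible] a adj tr Tr.get

theorem row_spec (i : ℕ) (hi : i < 416) :
    (∑ k ∈ Finset.range 416, a i k * 256 ^ k = tr.get i) ∧
    (∑ k ∈ Finset.range 416, a i k = 100) ∧
    (∑ k ∈ Finset.range 416, a i k * tr.get k = 80 * 256 ^ i + (16 * tr.get i + 20 * ones)) ∧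
    a i i = 0 := rowOK_spec i (allBelow_spec _ _ rows_ok i hi)

theorem aux255 (X S1 Q S2 : ℕ) (h : 255 * X = 8 * (255 * S1) + 20 * (Q * (255 * S2))) :
    X = 8 * S1 + 20 * (Q * S2) := by
  have : 255 * X = 255 * (8 * S1 + 20 * (Q * S2)) := by rw [h]; ring
  exact Nat.eq_of_mul_eq_mul_left (by norm_num) this

theorem row_sum (i : ℕ) (hi : i < 416) : ∑ k ∈ range 416, a i k = 100 := (row_spec i hi).2.1

theorem a_self (i : ℕ) (hi : i < 416) : a i i = 0 := (row_spec i hi).2.2.2

theorem tr_eq (i : ℕ) (hi : i < 416) : tr.get i = ∑ k ∈ range 416, a i k * 256 ^ k :=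
  (row_spec i hi).1.symm

theorem geom (n : ℕ) : 255 * ∑ k ∈ range n, 256 ^ k = 256 ^ n - 1 := by
  have h := Nat.geomSum_eq (m := 256) (by norm_num) n
  rw [h]
  have : (256 - 1) ∣ 256 ^ n - 1 := by simpa using Nat.sub_dvd_pow_sub_pow 256 1 n
  exact Nat.mul_div_cancel' this

theorem ones_eq : ones = ∑ k ∈ range 416, 256 ^ k := by
  have h1 : 255 * ones = 256 ^ 416 - 1 := Nat.eq_of_beq_eq_true ones_ok
  have h2 := geom 416
  omega

theorem srg (i k : ℕ) (hi : i < 416) (hk : k < 416) :
    ∑ j ∈ range 416, a i j * a j k = (if i = k then 80 else 0) + 16 * a i k + 20 := by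
  have h := (row_spec i hi).2.2.1
  have hL : ∑ j ∈ range 416, a i j * tr.get j =
      ∑ k ∈ range 416, (∑ j ∈ range 416, a i j * a j k) * 256 ^ k := by
    have : ∀ j ∈ range 416, a i j * tr.get j = ∑ k ∈ range 416, a i j * a j k * 256 ^ k := by
      intro j hj
      rw [tr_eq j (mem_range.mp hj), mul_sum]
      exact sum_congr rfl fun k _ => by ring
    rw [sum_congr rfl this, sum_comm]
    exact sum_congr rfl fun k _ => by rw [sum_mul]
  have hR : 80 * 256 ^ i + (16 * tr.get i + 20 * ones) =
      ∑ k ∈ range 416, ((if i = k then 80 else 0) + 16 * a i k + 20) * 256 ^ k := by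
    have : ∀ k ∈ range 416, ((if i = k then 80 else 0) + 16 * a i k + 20) * 256 ^ k =
        (if i = k then 80 * 256 ^ k else 0) + (16 * (a i k * 256 ^ k) + 20 * 256 ^ k) := by
      intro k _
      split <;> ring
    rw [sum_congr rfl this, sum_add_distrib, sum_add_distrib, sum_ite_eq,
      if_pos (mem_range.mpr hi), ← mul_sum, ← mul_sum, ← tr_eq i hi, ← ones_eq]
  rw [hL, hR] at h
  refine pk_inj 416 _ _ ?_ ?_ h k hk
  · intro k _
    calc ∑ j ∈ range 416, a i j * a j k ≤ ∑ j ∈ range 416, a i j :=
          sum_le_sum fun j _ => by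
            calc a i j * a j k ≤ a i j * 1 := Nat.mul_le_mul_left _ (a_le_one j k)
              _ = a i j := mul_one _
      _ = 100 := row_sum i hi
      _ < 256 := by norm_num
  · intro k _
    have := a_le_one i k
    split <;> omega

theorem a_symm_imp (i k : ℕ) (hi : i < 416) (hk : k < 416) (h : a i k = 1) : a k i = 1 := by
  have h1 := srg i i hi hi
  rw [a_self i hi] at h1
  simp only [if_true, mul_zero, add_zero] at h1
  have h2 := row_sum i hi
  have h3 : ∑ j ∈ range 416, a i j * a j i = ∑ j ∈ range 416, a i j := by rw [h1, h2]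
  have h4 := (sum_eq_sum_iff_of_le (fun j _ => by
      calc a i j * a j i ≤ a i j * 1 := Nat.mul_le_mul_left _ (a_le_one j i)
        _ = a i j := mul_one _)).mp h3 k (mem_range.mpr hk)
  rw [h] at h4; simpa using h4

theorem a_symm (i k : ℕ) (hi : i < 416) (hk : k < 416) : a i k = a k i := by
  have h1 := a_le_one i k
  have h2 := a_le_one k i
  rcases Nat.le_one_iff_eq_zero_or_eq_one.mp h1 with e | e
  · rcases Nat.le_one_iff_eq_zero_or_eq_one.mp h2 with e' | e'
    · rw [e, e']
    · have := a_symm_imp k i hk hi e'; omega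
  · rw [e, a_symm_imp i k hi hk e]

theorem seg_eq (s n : ℕ) : seg s n = (List.range n).map (fun i => s + i) := by
  have key : ∀ (n : ℕ) (acc : List ℕ),
      (Nat.rec (motive := fun _ => List ℕ → List ℕ) (fun acc => acc)
        (fun i ih acc => ih (Nat.add s i :: acc)) n acc : List ℕ) =
        (List.range n).map (fun i => s + i) ++ acc := by
    intro n
    induction n with
    | zero => intro acc; rfl
    | succ n ih =>
      intro acc
      rw [List.range_succ, List.map_append, List.append_assoc]
      exact ih (Nat.add s n :: acc)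
  have := key n []
  rw [List.append_nil] at this
  exact this

theorem sumRow_seg (s n : ℕ) : sumRow (seg s n) = ∑ j ∈ range n, tr.get (s + j) := by
  rw [sumRow_eq, seg_eq, List.map_map]
  induction n with
  | zero => simp
  | succ n ih => rw [List.range_succ, List.map_append, List.sum_append, ih, sum_range_succ]; simp

/-- expected number of neighbours of `k` in the `c`-th component -/
def cdeg (c k : ℕ) : ℕ :=
  if k < 320 then 8 else if 320 + 32 * c ≤ k ∧ k < 320 + 32 * c + 32 then 20 else 0

theorem bnd1 (c k : ℕ) : ∑ j ∈ range 32, a (320 + 32 * c + j) k < 256 := by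
  have h2 : ∑ j ∈ range 32, a (320 + 32 * c + j) k ≤ ∑ _j ∈ range 32, 1 :=
      sum_le_sum fun j _ => a_le_one _ _
  rw [sum_const, card_range] at h2
  exact lt_of_le_of_lt h2 (by norm_num)

theorem bnd2 (c k : ℕ) : cdeg c k < 256 := by
  unfold cdeg; split
  · norm_num
  · split <;> norm_num

theorem shift_pow (s n : ℕ) : ∑ k ∈ range n, 256 ^ (s + k) = 256 ^ s * ∑ k ∈ range n, 256 ^ k := by
  rw [mul_sum]
  exact sum_congr rfl fun k _ => by rw [pow_add]

theorem split_sum (w : ℕ → ℕ) (c : ℕ) (hc : c < 3) :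
    ∑ k ∈ range 416, cdeg c k * w k =
      8 * ∑ k ∈ range 320, w k + 20 * ∑ k ∈ range 32, w (320 + 32 * c + k) := by
  have e1 : ∀ k ∈ range 416, cdeg c k * w k =
      (if k < 320 then 8 * w k else 0) +
      (if 320 + 32 * c ≤ k ∧ k < 320 + 32 * c + 32 then 20 * w k else 0) := by
    intro k _
    unfold cdeg
    by_cases hk1 : k < 320
    · have : ¬ (320 + 32 * c ≤ k ∧ k < 320 + 32 * c + 32) := by omega
      simp [hk1, this]
    · by_cases hk2 : 320 + 32 * c ≤ k ∧ k < 320 + 32 * c + 32
      · simp [hk1, hk2]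
      · simp only [if_neg hk1, if_neg hk2]; simp
  rw [sum_congr rfl e1, sum_add_distrib, ← sum_filter, ← sum_filter]
  have e2 : (range 416).filter (fun k => k < 320) = range 320 := by
    ext k; simp only [mem_filter, mem_range]; omega
  have e3 : (range 416).filter (fun k => 320 + 32 * c ≤ k ∧ k < 320 + 32 * c + 32) =
      (range 32).image (fun k => 320 + 32 * c + k) := by
    ext k
    simp only [mem_filter, mem_range, mem_image]
    constructor
    · intro h; exact ⟨k - (320 + 32 * c), by omega, by omega⟩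
    · rintro ⟨j, hj, rfl⟩; omega
  rw [e2, e3, sum_image (fun x _ y _ h => Nat.add_left_cancel h), mul_sum, mul_sum]

/-- numbers of neighbours in the `c`-th component -/
theorem comp_deg (c : ℕ) (hc : c < 3) (k : ℕ) (hk : k < 416) :
    ∑ j ∈ range 32, a (320 + 32 * c + j) k = cdeg c k := by
  have h0 := Nat.eq_of_beq_eq_true (allBelow_spec _ _ comps_ok c hc)
  have h1 : 255 * sumRow (seg (320 + 32 * c) 32) =
      8 * (256 ^ 320 - 1) + 20 * (256 ^ (320 + 32 * c) * (256 ^ 32 - 1)) := h0
  rw [sumRow_seg, ← geom 320, ← geom 32] at h1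
  have hL : ∑ j ∈ range 32, tr.get (320 + 32 * c + j) =
      ∑ k ∈ range 416, (∑ j ∈ range 32, a (320 + 32 * c + j) k) * 256 ^ k := by
    have : ∀ j ∈ range 32, tr.get (320 + 32 * c + j) =
        ∑ k ∈ range 416, a (320 + 32 * c + j) k * 256 ^ k := by
      intro j hj
      have := mem_range.mp hj
      exact tr_eq _ (by omega)
    rw [sum_congr rfl this, sum_comm]
    exact sum_congr rfl fun k _ => by rw [sum_mul]
  have hR : ∑ k ∈ range 416, cdeg c k * 256 ^ k =
      8 * ∑ k ∈ range 320, 256 ^ k + 20 * (256 ^ (320 + 32 * c) * ∑ k ∈ range 32, 256 ^ k) := by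
    rw [split_sum (fun k => 256 ^ k) c hc, shift_pow]
  have hfin : ∑ j ∈ range 32, tr.get (320 + 32 * c + j) =
      8 * ∑ k ∈ range 320, 256 ^ k + 20 * (256 ^ (320 + 32 * c) * ∑ k ∈ range 32, 256 ^ k) :=
    aux255 _ _ _ _ h1
  rw [hL] at hfin
  rw [← hR] at hfin
  exact pk_inj 416 (fun k => ∑ j ∈ range 32, a (320 + 32 * c + j) k)
    (fun k => cdeg c k) (fun k _ => bnd1 c k) (fun k _ => bnd2 c k) hfin k hk

/-- no six pairwise adjacent vertices among the first 320 vertices -/
theorem noClique6 : NoC 6 (List.range 320) := by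
  have h := chk_spec 6 (dn 320 []) chkS
  rwa [dn_eq, List.append_nil] at h

/-- no five pairwise adjacent vertices among the neighbours of vertex 320 in the first 320 -/
theorem noClique5 : NoC 5 ((List.range 320).filter (adj 320)).reverse := by
  have h := chkX
  rw [filt_row, dn_eq, List.append_nil] at h
  exact chk_spec 5 _ h

end Vale.Agent.P052
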