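import Vale.Agent.P052.Graph

namespace Vale.Agent.P052

open Finset Matrix

/-- the adjacency matrix -/
noncomputable def A : Matrix (Fin 416) (Fin 416) ℝ := fun i j => (a i j : ℝ)

/-- the all-one matrices -/
def J : Matrix (Fin 416) (Fin 416) ℝ := fun _ _ => 1

/-- indicator of the component `c` -/
def ind (c k : ℕ) : ℕ := if 320 + 32 * c ≤ k ∧ k < 320 + 32 * c + 32 then 1 else 0

/-- component indicator matrix -/
def W : Matrix (Fin 416) (Fin 3) ℝ := fun i c => (ind c i : ℝ)

/-- `3 I - J` of size three -/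
def M3 : Matrix (Fin 3) (Fin 3) ℝ := !![2, -1, -1; -1, 2, -1; -1, -1, 2]

/-- the correction matrix -/
noncomputable def K : Matrix (Fin 416) (Fin 416) ℝ := W * M3 * Wᵀ

theorem sum_ind (f : ℕ → ℕ) (c : ℕ) (hc : c < 3) :
    ∑ k ∈ range 416, f k * ind c k = ∑ k ∈ range 32, f (320 + 32 * c + k) := by
  have e1 : ∀ k ∈ range 416, f k * ind c k =
      (if 320 + 32 * c ≤ k ∧ k < 320 + 32 * c + 32 then f k else 0) := by
    intro k _
    unfold ind
    split <;> simp
  rw [sum_congr rfl e1, ← sum_filter]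
  have e3 : (range 416).filter (fun k => 320 + 32 * c ≤ k ∧ k < 320 + 32 * c + 32) =
      (range 32).image (fun k => 320 + 32 * c + k) := by
    ext k
    simp only [mem_filter, mem_range, mem_image]
    constructor
    · intro h; exact ⟨k - (320 + 32 * c), by omega, by omega⟩
    · rintro ⟨j, hj, rfl⟩; omega
  rw [e3, sum_image (fun x _ y _ h => Nat.add_left_cancel h)]

theorem A_symm (i j : Fin 416) : A i j = A j i := by
  unfold A; rw [a_symm i j i.2 j.2]

theorem A_transpose : Aᵀ = A := by ext i j; exact A_symm j i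

theorem J_transpose : Jᵀ = J := rfl

theorem M3_transpose : M3ᵀ = M3 := by
  ext i j; fin_cases i <;> fin_cases j <;> rfl

theorem K_transpose : Kᵀ = K := by
  unfold K
  rw [transpose_mul, transpose_mul, transpose_transpose, M3_transpose, Matrix.mul_assoc]

theorem hAA : A * A = (80 : ℝ) • (1 : Matrix (Fin 416) (Fin 416) ℝ) + (16 : ℝ) • A + (20 : ℝ) • J := by
  ext i k
  have h := srg i k i.2 k.2
  have h1 : (A * A) i k = ((∑ j ∈ range 416, a i j * a j k : ℕ) : ℝ) := by
    rw [mul_apply, Finset.sum_range]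
    push_cast
    rfl
  rw [h1, h]
  simp only [Matrix.add_apply, Matrix.smul_apply, Matrix.one_apply, smul_eq_mul, J, A, Fin.ext_iff]
  push_cast
  split <;> ring

theorem hAJ : A * J = (100 : ℝ) • J := by
  ext i k
  have h := row_sum i i.2
  have h1 : (A * J) i k = ((∑ j ∈ range 416, a i j : ℕ) : ℝ) := by
    rw [mul_apply, Finset.sum_range]
    push_cast
    exact sum_congr rfl fun j _ => by simp [A, J]
  rw [h1, h]
  simp [J]

theorem hJA : J * A = (100 : ℝ) • J := by
  have := congrArg transpose hAJ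
  rw [transpose_mul, A_transpose, J_transpose, transpose_smul, J_transpose] at this
  exact this

theorem hJJ : J * J = (416 : ℝ) • J := by
  ext i k
  simp [mul_apply, J]

theorem W_sum (c : Fin 3) : ∑ i, W i c = 32 := by
  have h := sum_ind (fun _ => 1) c c.2
  have h1 : ∑ i, W i c = ((∑ k ∈ range 416, 1 * ind c k : ℕ) : ℝ) := by
    rw [Finset.sum_range]; push_cast
    exact sum_congr rfl fun j _ => by simp [W]
  rw [h1, h]; simp

theorem hWW : Wᵀ * W = (32 : ℝ) • (1 : Matrix (Fin 3) (Fin 3) ℝ) := by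
  ext c d
  rw [mul_apply]
  by_cases h : c = d
  · subst h
    have : ∀ i, Wᵀ c i * W i c = W i c := by
      intro i; simp only [transpose_apply, W]
      unfold ind; split <;> simp
    rw [sum_congr rfl fun i _ => this i, W_sum]; simp
  · have : ∀ i, Wᵀ c i * W i d = 0 := by
      intro i; simp only [transpose_apply, W]
      unfold ind
      have hcd : (c : ℕ) ≠ d := fun e => h (Fin.ext e)
      split
      · split
        · exfalso; omega
        · simp
      · simp
    rw [sum_congr rfl fun i _ => this i]; simp [h]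

theorem hM3 : M3 * M3 = (3 : ℝ) • M3 := by
  ext i j
  fin_cases i <;> fin_cases j <;> simp [M3, mul_apply, Fin.sum_univ_three] <;> norm_num

theorem hKK : K * K = (96 : ℝ) • K := by
  unfold K
  calc W * M3 * Wᵀ * (W * M3 * Wᵀ) = W * (M3 * (Wᵀ * W) * M3) * Wᵀ := by
        simp only [Matrix.mul_assoc]
    _ = (96 : ℝ) • (W * M3 * Wᵀ) := by
        rw [hWW, Matrix.mul_smul, Matrix.mul_one, Matrix.smul_mul, hM3]
        simp only [Matrix.mul_smul, Matrix.smul_mul, smul_smul]
        norm_num

/-- matrix with constant rows -/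
def cm (v : Fin 416 → ℝ) : Matrix (Fin 416) (Fin 3) ℝ := fun i _ => v i

/-- indicator of the first 320 vertices, in three columns -/
noncomputable def sS : Matrix (Fin 416) (Fin 3) ℝ := cm fun i => if (i : ℕ) < 320 then 1 else 0

theorem hAW : A * W = (8 : ℝ) • sS + (20 : ℝ) • W := by
  ext i c
  have h := sum_ind (fun k => a i k) c c.2
  have h1 : (A * W) i c = ((∑ k ∈ range 416, a i k * ind c k : ℕ) : ℝ) := by
    rw [mul_apply, Finset.sum_range]; push_cast; rfl
  have h2 : ∑ k ∈ range 32, a i (320 + 32 * c + k) = cdeg c i := by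
    rw [← comp_deg c c.2 i i.2]
    refine sum_congr rfl fun k hk => ?_
    have := mem_range.mp hk
    have := c.2
    exact a_symm _ _ i.2 (by omega)
  rw [h1, h, h2]
  simp only [Matrix.add_apply, Matrix.smul_apply, smul_eq_mul, sS, cm, W]
  unfold cdeg ind
  by_cases hk1 : (i : ℕ) < 320
  · have : ¬ (320 + 32 * (c : ℕ) ≤ i ∧ (i : ℕ) < 320 + 32 * c + 32) := by omega
    simp [hk1, this]
  · by_cases hk2 : 320 + 32 * (c : ℕ) ≤ i ∧ (i : ℕ) < 320 + 32 * c + 32
    · simp [hk1, hk2]
    · simp only [if_neg hk1, if_neg hk2]; simp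

theorem const_M3 (v : Fin 416 → ℝ) : cm v * M3 = 0 := by
  ext i j
  rw [mul_apply, Fin.sum_univ_three]
  fin_cases j <;> simp [M3, cm] <;> ring

theorem hAK : A * K = (20 : ℝ) • K := by
  unfold K
  rw [← Matrix.mul_assoc, ← Matrix.mul_assoc, hAW, Matrix.add_mul, Matrix.smul_mul,
    Matrix.smul_mul, sS, const_M3, smul_zero, zero_add, Matrix.smul_mul]

theorem hKA : K * A = (20 : ℝ) • K := by
  have := congrArg transpose hAK
  rwa [transpose_mul, A_transpose, K_transpose, transpose_smul, K_transpose] at this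

theorem hJK : J * K = 0 := by
  unfold K
  have h : J * W = cm fun _ => 32 := by
    ext i c
    rw [mul_apply]
    simp only [J, one_mul]
    exact W_sum c
  rw [← Matrix.mul_assoc, ← Matrix.mul_assoc, h, const_M3, Matrix.zero_mul]

theorem hKJ : K * J = 0 := by
  have := congrArg transpose hJK
  rwa [transpose_mul, J_transpose, K_transpose, transpose_zero] at this

/-- the matrix of the orthogonal projection -/
noncomputable def P : Matrix (Fin 416) (Fin 416) ℝ :=
  (1 / 96 : ℝ) • ((16 : ℝ) • (1 : Matrix (Fin 416) (Fin 416) ℝ) + (4 : ℝ) • A - J - K)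

theorem P_transpose : Pᵀ = P := by
  unfold P
  rw [transpose_smul, transpose_sub, transpose_sub, transpose_add, transpose_smul, transpose_smul,
    transpose_one, A_transpose, J_transpose, K_transpose]

theorem P_sq : P * P = P := by
  unfold P
  rw [Matrix.smul_mul, Matrix.mul_smul, smul_smul]
  have key : ((16 : ℝ) • (1 : Matrix (Fin 416) (Fin 416) ℝ) + (4 : ℝ) • A - J - K) *
      ((16 : ℝ) • (1 : Matrix (Fin 416) (Fin 416) ℝ) + (4 : ℝ) • A - J - K) =
      (96 : ℝ) • ((16 : ℝ) • (1 : Matrix (Fin 416) (Fin 416) ℝ) + (4 : ℝ) • A - J - K) := by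
    simp only [Matrix.sub_mul, Matrix.mul_sub, Matrix.add_mul, Matrix.mul_add, Matrix.smul_mul,
      Matrix.mul_smul, Matrix.one_mul, Matrix.mul_one, hAA, hAJ, hJA, hJJ, hAK, hKA, hJK, hKJ, hKK]
    module
  rw [key, smul_smul]
  norm_num

end Vale.Agent.P052
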