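import Vale.Agent.P052.Checks

namespace Vale.Agent.P052

theorem force_eq (n : ℕ) (f : ℕ → Bool) : force n f = f n := rfl

/-- adjacency -/
noncomputable def adj (i k : ℕ) : Bool := Nat.beq (Nat.mod (Nat.shiftRight (tr.get i) (Nat.mul 8 k)) 2) 1

theorem filt_eq (m : ℕ) (L acc : List ℕ) (k : List ℕ → Bool) :
    filt m L acc k =
      k ((L.filter fun v => Nat.beq (Nat.mod (Nat.shiftRight m (Nat.mul 8 v)) 2) 1).reverse ++ acc) := by
  induction L generalizing acc with
  | nil => rfl
  | cons v L ih =>
    have h : filt m (v :: L) acc k =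
      cond (Nat.beq (Nat.mod (Nat.shiftRight m (Nat.mul 8 v)) 2) 1)
        (filt m L (v :: acc) k) (filt m L acc k) := rfl
    rw [h, List.filter_cons]
    cases hb : Nat.beq (Nat.mod (Nat.shiftRight m (Nat.mul 8 v)) 2) 1
    · simp only [cond_false]
      rw [ih]; simp
    · simp only [cond_true]
      rw [ih]; simp

theorem filt_row (i : ℕ) (L : List ℕ) (k : List ℕ → Bool) :
    (force (tr.get i) fun m => filt m L [] k) = k (L.filter (adj i)).reverse := by
  rw [force_eq, filt_eq]; simp only [List.append_nil]; rfl

theorem scan_cons (f : List ℕ → Bool) (v : ℕ) (L : List ℕ) :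
    scan f (v :: L) = cond (f (L.filter (adj v)).reverse) (scan f L) false := by
  have h : scan f (v :: L) = cond (force (tr.get v) fun m => filt m L [] f) (scan f L) false := rfl
  rw [h, filt_row]

theorem dn_eq (n : ℕ) (acc : List ℕ) : dn n acc = List.range n ++ acc := by
  induction n generalizing acc with
  | zero => rfl
  | succ n ih =>
    have h : dn (n + 1) acc = dn n (n :: acc) := rfl
    rw [h, ih, List.range_succ]; simp

/-- no clique of size `k` inside `L` -/
def NoC (k : ℕ) (L : List ℕ) : Prop :=
  ∀ K : Finset ℕ, (∀ v ∈ K, v ∈ L) → (∀ u ∈ K, ∀ v ∈ K, u ≠ v → adj u v = true) → K.card ≠ k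

theorem chk_spec (k : ℕ) : ∀ L : List ℕ, chk k L = true → NoC k L := by
  induction k with
  | zero => intro L h; exact absurd h (by simp [chk])
  | succ k ihk =>
    intro L
    have hk : chk (k + 1) L = scan (chk k) L := rfl
    rw [hk]; clear hk
    induction L with
    | nil =>
      intro _ K hK _ hc
      have : K = ∅ := by
        apply Finset.eq_empty_of_forall_notMem
        intro v hv; exact absurd (hK v hv) (by simp)
      simp [this] at hc
    | cons v L ihL =>
      intro h
      rw [scan_cons] at h
      have h1 : chk k (L.filter (adj v)).reverse = true := by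
        cases hh : chk k (L.filter (adj v)).reverse
        · rw [hh] at h; simp at h
        · rfl
      rw [h1] at h
      have h2 : scan (chk k) L = true := h
      intro K hK hA hc
      by_cases hv : v ∈ K
      · refine ihk _ h1 (K.erase v) ?_ ?_ ?_
        · intro u hu
          have hu1 := Finset.mem_erase.mp hu
          have := hK u hu1.2
          rcases List.mem_cons.mp this with e | e
          · exact absurd e hu1.1
          · rw [List.mem_reverse, List.mem_filter]
            exact ⟨e, hA v hv u hu1.2 (Ne.symm hu1.1)⟩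
        · intro a ha b hb hab
          exact hA a (Finset.mem_of_mem_erase ha) b (Finset.mem_of_mem_erase hb) hab
        · rw [Finset.card_erase_of_mem hv, hc]; rfl
      · refine ihL h2 K ?_ hA hc
        intro u hu
        rcases List.mem_cons.mp (hK u hu) with e | e
        · exact absurd (e ▸ hu) hv
        · exact e

theorem allBelow_spec (p : ℕ → Bool) (n : ℕ) (h : allBelow p n = true) : ∀ i < n, p i = true := by
  induction n with
  | zero => intro i hi; omega
  | succ n ih =>
    have h0 : allBelow p (n + 1) = cond (p n) (allBelow p n) false := rfl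
    rw [h0] at h
    cases hp : p n
    · rw [hp] at h; simp at h
    · rw [hp] at h
      intro i hi
      rcases Nat.lt_succ_iff_lt_or_eq.mp hi with h' | h'
      · exact ih h i h'
      · exact h' ▸ hp

theorem sumPow_eq (L : List ℕ) : sumPow L = (L.map fun j => 256 ^ j).sum := by
  induction L with
  | nil => rfl
  | cons v L ih => 
    have h : sumPow (v :: L) = 256 ^ v + sumPow L := rfl
    rw [h, ih]; simp

theorem sumRow_eq (L : List ℕ) : sumRow L = (L.map fun j => tr.get j).sum := by
  induction L with
  | nil => rfl
  | cons v L ih => 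
    have h : sumRow (v :: L) = tr.get v + sumRow L := rfl
    rw [h, ih]; simp

theorem len_eq (L : List ℕ) : len L = L.length := by
  induction L with
  | nil => rfl
  | cons v L ih => 
    have h : len (v :: L) = len L + 1 := rfl
    rw [h, ih]; simp

/-- 0/1 valued adjacency -/
noncomputable def a (i k : ℕ) : ℕ := if adj i k then 1 else 0

theorem sum_filter_range (n : ℕ) (p : ℕ → Bool) (f : ℕ → ℕ) :
    ((((List.range n).filter p).reverse).map f).sum =
      ∑ k ∈ Finset.range n, (if p k then 1 else 0) * f k := by
  rw [List.map_reverse, List.sum_reverse]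
  induction n with
  | zero => simp
  | succ n ih =>
    rw [List.range_succ, List.filter_append, List.map_append, List.sum_append, ih,
      Finset.sum_range_succ]
    congr 1
    by_cases h : p n <;> simp [h]

theorem rowOK_spec (i : ℕ) (h : rowOK i = true) :
    (∑ k ∈ Finset.range 416, a i k * 256 ^ k = tr.get i) ∧
    (∑ k ∈ Finset.range 416, a i k = 100) ∧
    (∑ k ∈ Finset.range 416, a i k * tr.get k = 80 * 256 ^ i + (16 * tr.get i + 20 * ones)) ∧
    a i i = 0 := by
  have h0 : rowOK i = (force (tr.get i) fun m => filt m (dn 416 []) [] fun L =>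
    cond (Nat.beq (sumPow L) m)
      (cond (Nat.beq (len L) 100)
        (cond (Nat.beq (sumRow L) (Nat.add (Nat.mul 80 (Nat.pow 256 i)) (Nat.add (Nat.mul 16 m) (Nat.mul 20 ones))))
          (Nat.beq (Nat.mod (Nat.shiftRight m (Nat.mul 8 i)) 2) 0) false) false) false) := rfl
  rw [h0, force_eq, filt_eq, dn_eq, List.append_nil, List.append_nil] at h
  change (cond (Nat.beq (sumPow ((List.range 416).filter (adj i)).reverse) (tr.get i))
      (cond (Nat.beq (len ((List.range 416).filter (adj i)).reverse) 100)
        (cond (Nat.beq (sumRow ((List.range 416).filter (adj i)).reverse) (Nat.add (Nat.mul 80 (Nat.pow 256 i)) (Nat.add (Nat.mul 16 (tr.get i)) (Nat.mul 20 ones))))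
          (Nat.beq (Nat.mod (Nat.shiftRight (tr.get i) (Nat.mul 8 i)) 2) 0) false) false) false) = true at h
  cases h1 : Nat.beq (sumPow ((List.range 416).filter (adj i)).reverse) (tr.get i) with
  | false => rw [h1] at h; simp at h
  | true =>
  cases h2 : Nat.beq (len ((List.range 416).filter (adj i)).reverse) 100 with
  | false => rw [h1, h2] at h; simp at h
  | true =>
  cases h3 : Nat.beq (sumRow ((List.range 416).filter (adj i)).reverse) (Nat.add (Nat.mul 80 (Nat.pow 256 i)) (Nat.add (Nat.mul 16 (tr.get i)) (Nat.mul 20 ones))) with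
  | false => rw [h1, h2, h3] at h; simp at h
  | true =>
  rw [h1, h2, h3] at h
  have h4 : Nat.beq (Nat.mod (Nat.shiftRight (tr.get i) (Nat.mul 8 i)) 2) 0 = true := h
  have e1 := Nat.eq_of_beq_eq_true h1
  have e2 := Nat.eq_of_beq_eq_true h2
  have e3 := Nat.eq_of_beq_eq_true h3
  have e4 := Nat.eq_of_beq_eq_true h4
  rw [sumPow_eq, sum_filter_range] at e1
  rw [len_eq] at e2
  rw [sumRow_eq, sum_filter_range] at e3
  refine ⟨e1, ?_, e3, ?_⟩
  · have := sum_filter_range 416 (adj i) (fun _ => 1)
    simp only [mul_one] at this
    rw [← e2]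
    unfold a
    rw [← this]
    simp
  · unfold a adj
    rw [e4]; rfl

end Vale.Agent.P052
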